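import Vale.Agent.P297.Gen.QuotDefs
import Vale.Agent.P297.Gen.Dom
import Vale.Agent.P297.Gen.H516.Ext
import Vale.Agent.P297.H878.Fibre
import Vale.Agent.P297.H878.Clos
import Vale.Agent.P297.H878.Emb

/-!
The fibres of the two maps to rational elliptic surfaces.
-/

set_option linter.unusedSectionVars false
set_option linter.style.haveILetI false

open CategoryTheory AlgebraicGeometry IntermediateField Polynomial

namespace Vale.Agent.P297.Gen

open Vale.Agent.P297 Vale.Agent.P297.H839 Vale.Agent.P297.H516 Vale.Agent.P297.H878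

variable {K : Type} [Field K] [Algebra ℂ K]

section Emb

variable {l x y : K} {f : (IntermediateField.adjoin ℂ {l})[X]}

theorem Pencil.sep (h : Pencil l x y f) : f.Separable := by
  haveI : CharZero (IntermediateField.adjoin ℂ ({l} : Set K)) :=
    charZero_of_injective_algebraMap (algebraMap ℂ _).injective
  exact PerfectField.separable_iff_squarefree.2 h.sqf

theorem le_range (l x : K) :
    IntermediateField.adjoin ℂ {l} ≤ IntermediateField.adjoin ℂ (Set.range ![l, x]) := by
  rw [IntermediateField.adjoin_le_iff]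
  rintro _ rfl
  exact IntermediateField.subset_adjoin _ _ ⟨0, rfl⟩

theorem aeval_mem (F : IntermediateField ℂ K) (hF : IntermediateField.adjoin ℂ {l} ≤ F) {x : K}
    (hx : x ∈ F) (p : (IntermediateField.adjoin ℂ {l})[X]) : Polynomial.aeval x p ∈ F := by
  induction p using Polynomial.induction_on' with
  | add p q hp hq => rw [map_add]; exact add_mem hp hq
  | monomial n r =>
    rw [Polynomial.aeval_monomial]
    exact mul_mem (hF r.2) (pow_mem hx n)

theorem Pencil.notMem (h : Pencil l x y f) :
    y ∉ IntermediateField.adjoin ℂ (Set.range ![l, x]) := by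
  let Ω := AlgebraicClosure K
  let j : K →ₐ[ℂ] Ω := IsScalarTower.toAlgHom ℂ K Ω
  have hj : Function.Injective j := (algebraMap K Ω).injective
  have hind : AlgebraicIndependent ℂ ![j l, j x] := by
    have h2 := h.ind.map' (f := j) hj
    have h3 : (⇑j ∘ ![l, x]) = ![j l, j x] := by
      funext i
      fin_cases i <;> rfl
    rwa [h3] at h2
  obtain ⟨M, hM, hlM, hMi⟩ := exists_closure ((pair_iff _ _).1 hind).1
  have hle : (IntermediateField.adjoin ℂ {l}).map j ≤ M := by
    rw [IntermediateField.adjoin_map, Set.image_singleton]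
    exact hlM
  let e : IntermediateField.adjoin ℂ {l} →+* M :=
    { toFun := fun a => ⟨j a, hle ⟨a, a.2, rfl⟩⟩
      map_one' := Subtype.ext (map_one j)
      map_zero' := Subtype.ext (map_zero j)
      map_mul' := fun a b => Subtype.ext (map_mul j _ _)
      map_add' := fun a b => Subtype.ext (map_add j _ _) }
  have hx : j x ∉ M := (hMi _).1 hind
  intro hmem
  refine sqrt_notMem M hM (f.map e) (h.sep.map (f := e)) ?_ (z := j x) (y := j y) hx ?_ ?_
  · rw [Polynomial.natDegree_map]
    have := h.five
    omega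
  · rw [← map_pow, h.eq, Polynomial.aeval_def, Polynomial.aeval_def, Polynomial.eval₂_map]
    exact Polynomial.hom_eval₂ f _ j.toRingHom x
  · have h4 : (IntermediateField.adjoin ℂ (Set.range ![l, x])).map j ≤
        (IntermediateField.adjoin M {j x}).restrictScalars ℂ := by
      rw [IntermediateField.adjoin_map, IntermediateField.adjoin_le_iff]
      rintro _ ⟨_, ⟨i, rfl⟩, rfl⟩
      fin_cases i
      · exact (IntermediateField.adjoin M {j x}).algebraMap_mem
          ⟨j l, hle ⟨l, IntermediateField.mem_adjoin_simple_self ℂ l, rfl⟩⟩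
      · exact IntermediateField.mem_adjoin_simple_self M (j x)
    exact h4 ⟨y, hmem, rfl⟩

theorem Pencil.sq_mem (h : Pencil l x y f) :
    y ^ 2 ∈ IntermediateField.adjoin ℂ (Set.range ![l, x]) := by
  rw [h.eq]
  exact aeval_mem _ (le_range l x) (IntermediateField.subset_adjoin _ _ ⟨1, rfl⟩) f

theorem Pencil.span (h : Pencil l x y f) (k : K) :
    ∃ a ∈ IntermediateField.adjoin ℂ (Set.range ![l, x]),
      ∃ b ∈ IntermediateField.adjoin ℂ (Set.range ![l, x]), k = a + b * y := by
  refine exists_quad _ y h.sq_mem {l, x, y} ?_ h.top k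
  rintro k (rfl | rfl | rfl)
  · exact Or.inl (IntermediateField.subset_adjoin _ _ ⟨0, rfl⟩)
  · exact Or.inl (IntermediateField.subset_adjoin _ _ ⟨1, rfl⟩)
  · exact Or.inr rfl

/-- The points of the pencil. -/
theorem Pencil.emb (h : Pencil l x y f) {N : Type} [Field N] [Algebra ℂ N]
    (lam : IntermediateField.adjoin ℂ {l} →ₐ[ℂ] N) {z' y' : N}
    (hz : AlgebraicIndependent ℂ
      ![lam ⟨l, IntermediateField.mem_adjoin_simple_self ℂ l⟩, z'])
    (hy' : y' ^ 2 = (f.map lam.toRingHom).eval z') :
    ∃ Θ : K →ₐ[ℂ] N, (∀ e : IntermediateField.adjoin ℂ {l}, Θ e = lam e) ∧ Θ x = z' ∧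
      Θ y = y' := by
  obtain ⟨τ, hτ⟩ := exists_tau ![l, x] h.ind
    ![lam ⟨l, IntermediateField.mem_adjoin_simple_self ℂ l⟩, z'] (fun w hw =>
      isUnit_iff_ne_zero.2 fun h0 => hw (hz.eq_zero_of_aeval_eq_zero w h0))
  have hle := le_range l x
  have hτl : τ.comp (IntermediateField.inclusion hle) = lam := by
    apply agree_on_gen
    rintro _ rfl
    exact hτ 0
  have hτe : ∀ e : IntermediateField.adjoin ℂ {l}, τ (IntermediateField.inclusion hle e) = lam e :=
    fun e => DFunLike.congr_fun hτl e
  let x₀ : IntermediateField.adjoin ℂ (Set.range ![l, x]) :=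
    ⟨x, IntermediateField.subset_adjoin _ _ ⟨1, rfl⟩⟩
  have hτx : τ x₀ = z' := hτ 1
  have key : y' ^ 2 = τ ⟨y ^ 2, h.sq_mem⟩ := by
    have h1 : (⟨y ^ 2, h.sq_mem⟩ : IntermediateField.adjoin ℂ (Set.range ![l, x])) =
        Polynomial.eval₂ (IntermediateField.inclusion hle).toRingHom x₀ f := by
      apply Subtype.ext
      have h2 := Polynomial.hom_eval₂ f (IntermediateField.inclusion hle).toRingHom
        (IntermediateField.adjoin ℂ (Set.range ![l, x])).val.toRingHom x₀
      exact h.eq.trans h2.symm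
    rw [h1, hy', Polynomial.eval_map]
    have h3 := Polynomial.hom_eval₂ f (IntermediateField.inclusion hle).toRingHom τ.toRingHom x₀
    refine Eq.trans ?_ h3.symm
    change _ = Polynomial.eval₂ _ (τ x₀) f
    rw [hτx]
    congr 1
    exact RingHom.ext fun e => (hτe e).symm
  obtain ⟨Θ, hΘ, hΘy⟩ := exists_theta _ y h.sq_mem h.notMem h.span τ y' key
  refine ⟨Θ, ?_, ?_, hΘy⟩
  · intro e
    have h1 := hΘ (IntermediateField.inclusion hle e)
    rw [hτe] at h1
    exact h1
  · have h1 := hΘ x₀
    rw [hτx] at h1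
    exact h1

end Emb

end Vale.Agent.P297.Gen
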